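import Vale.Agent.P365.T2.H784.Lip
import Vale.Agent.P365.T2.H259.Det
import Vale.Agent.P365.T2.H179.OmPath
import Vale.Agent.P365.T2.H629.ErrSmall
import Vale.Agent.P365.T2.H179.Order2
import Vale.Agent.P365.T2.H963.XFin

/-!
# P365-T2: the field `om` of `OneFacts2` over the states (helper883)

179's pathwise inequality `om_path`, averaged over a stage:
`OmX ≤ C / k (PosX + EnX) + C' ε g EnX + C' BnX g + C' ErrX`, `C = 4 / θ + 2`.
Short stages and small tori are paid by `ErrX` (`1 / |S|`, `192 · 4^nJ / N`).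
-/

set_option linter.all false

namespace P365T2.H883

open P365L hiding Adm
open P365O P365T1 P365L.TL P365T2.H179 P365T2.H905 P365L.T2.Path MeasureTheory Set
open Vale.Agent.P365.J376 P365H219 P365T2.H213 P365T2.H320U P365T2.X629 P365T2.H259 P365T2.H862
open P365T2.H784 (Csc PhB lsB fB PhB_nonneg lsB_nonneg integrable_dis)
open P365T2.H963 (FEn FPos FErr FBn)

/-! ### admissibility of the entropy production -/

section adm

variable {ι : Type*} [Fintype ι] [DecidableEq ι] {A : Matrix ι ι ℝ}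

theorem Adm.sub' {G G' : (ι → ℂ) → ℝ} (h : H179.Adm G) (h' : H179.Adm G') :
    H179.Adm fun W => G W - G' W := by
  have := h.add h'.neg
  simpa only [← sub_eq_add_neg] using this

theorem adm_TT (hA : A.IsSymm) (x y : ι) :
    H179.Adm fun W : ι → ℂ => P365T2.H844.TT A W x y :=
  ((adm_e x).mul (adm_e y)).mul (adm_KK hA x y)

theorem meas_pr (hA : A.IsSymm) (x : ι) :
    Measurable fun W : ι → ℂ => P365T2.H844.pr (P365T2.H844.TT A W) x :=
  Finset.measurable_sum _ fun y _ => (adm_TT hA x y).meas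

theorem meas_Pdiv (hA : A.IsSymm) (x y : ι) :
    Measurable fun W : ι → ℂ =>
      P365T2.H844.TT A W x y / P365T2.H844.pr (P365T2.H844.TT A W) x :=
  (adm_TT hA x y).meas.div (meas_pr hA x)

theorem cont_Pdiv (hA : A.IsSymm) (x y : ι) :
    ContinuousOn (fun W : ι → ℂ =>
      P365T2.H844.TT A W x y / P365T2.H844.pr (P365T2.H844.TT A W) x) (LH ι) :=
  (contDiffOn_PP (n := 0) hA x y).continuousOn.congr fun W hW =>
    P365T2.H844.P_eq_PP hA hW x y

variable {E' : Type*} [NormedAddCommGroup E'] [InnerProductSpace ℝ E'] (Φ : ι → E')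

theorem meas_Pw (hA : A.IsSymm) (J k : ℕ) (v x : ι) :
    Measurable fun W : ι → ℂ => P365T2.H844.Pw Φ (P365T2.H844.TT A W) J k v x :=
  Finset.measurable_sum _ fun y _ => (meas_Pdiv hA v y).mul measurable_const

theorem cont_Pw (hA : A.IsSymm) (J k : ℕ) (v x : ι) :
    ContinuousOn (fun W : ι → ℂ => P365T2.H844.Pw Φ (P365T2.H844.TT A W) J k v x) (LH ι) :=
  continuousOn_finset_sum _ fun y _ => (cont_Pdiv hA v y).mul continuousOn_const

theorem adm_lamf (hA : A.IsSymm) {ε : ℝ} (hε : 0 < ε) (J k : ℕ) (x : ι) :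
    H179.Adm fun W : ι → ℂ =>
      P365T2.H844.lamf ε (P365T2.H844.ur Φ (P365T2.H844.TT A W) J k x) := by
  refine Adm.of_cont ?_ ?_
  · unfold P365T2.H844.lamf P365T2.H844.ur
    exact measurable_const.sub
      (Real.measurable_log.comp (((meas_Pw Φ hA J k x x).div_const _).add_const _))
  · unfold P365T2.H844.lamf P365T2.H844.ur
    refine continuousOn_const.sub (ContinuousOn.log
      (((cont_Pw Φ hA J k x x).div_const _).add continuousOn_const) fun W hW => ?_)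
    have h1 := P365T2.H844.ur_nonneg (Φ := Φ) (J := J) (k := k)
      (P365T2.H844.TT_nonneg (A := A) hW) (P365T2.H844.pr_TT_pos hA hW) x
    unfold P365T2.H844.ur at h1
    positivity

theorem adm_Pos (hA : A.IsSymm) {ε : ℝ} (hε : 0 < ε) (J : ℕ) :
    H179.Adm fun W : ι → ℂ => P365T2.H844.Pos Φ (P365T2.H844.TT A W) ε J := by
  have hP : ∀ k v, H179.Adm fun W : ι → ℂ =>
      P365T2.H844.Pw Φ (P365T2.H844.TT A W) J k v v := fun k v =>
    Adm.of_cont (meas_Pw Φ hA J k v v) (cont_Pw Φ hA J k v v)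
  unfold P365T2.H844.Pos
  exact Adm.sum _ fun k _ => Adm.sum _ fun x _ => Adm.sum _ fun v _ =>
    (adm_TT hA x v).mul ((Adm.sub' (adm_lamf Φ hA hε J k x) (adm_lamf Φ hA hε J k v)).mul
      (Adm.sub' (hP k v) (hP k x)))

end adm

/-! ### averages over a stage -/

section stw

variable {N : ℕ} [NeZero N] {W : StW N} {lam E C1 η : ℝ}

theorem Csc_nonneg' (h : W.Ok lam E C1 η) {g : ℝ} (ρ : ℕ) (τ : ℝ) : 0 ≤ Csc W E g ρ τ := by
  refine Finset.sum_nonneg fun z _ => P365T2.H784.Av_nonneg h τ fun l v => ?_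
  have hn := WV_neg (E := E) (stw_e_pos h τ l) v
  refine mul_nonneg ?_ (Finset.sum_nonneg fun x _ => mul_nonneg (stw_w_nonneg h τ l x)
    (lsB_nonneg (AT_symm N) hn _ x))
  have h0 := PhB_nonneg (A := AT N) hn (fB z ρ)
  rcases le_or_gt 0 g with hg | hg
  · exact div_nonneg (le_min h0 hg) hg
  · rw [min_eq_right (by linarith), div_self hg.ne]
    exact zero_le_one

theorem FBn_nonneg (h : W.Ok lam E C1 η) (g τ : ℝ) : 0 ≤ FBn E C1 g N W τ :=
  div_nonneg (Finset.sum_nonneg fun s _ => Csc_nonneg' h _ τ) N2_pos.le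

theorem PosX_nonneg (h : W.Ok lam E C1 η) (T τ : ℝ) : 0 ≤ PosX W E C1 T τ :=
  div_nonneg (AvG_nonneg (laws h) (stw_e_pos h τ) fun l V hV =>
    Pos844_nonneg (AT_symm N) hV T) N2_pos.le

/-- integrability of `CscP` with constant weights -/
theorem integrable_CscP (h : W.Ok lam E C1 η) (τ : ℝ) (l : Tor N → W.Λ) {g : ℝ} (hg : 0 < g)
    (ρ : ℕ) : Integrable (fun v => CscP (AT N) (WV E (eT W.u W.w τ l) v) (wT W.w τ l) g ρ)
      (Measure.pi fun x => W.ν (l x)) := by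
  haveI := h.prob
  unfold CscP
  exact integrable_finset_sum _ fun z _ =>
    integrable_dis (AT_symm N) _ E (stw_e_pos h τ l) _ hg (stw_w_nonneg h τ l)

theorem Av_CscP (h : W.Ok lam E C1 η) (τ : ℝ) {g : ℝ} (hg : 0 < g) (ρ : ℕ) :
    (W.Av E τ fun l V => CscP (AT N) V (wT W.w τ l) g ρ) = Csc W E g ρ τ := by
  haveI := h.prob
  unfold Csc
  rw [← P365T2.H784.Av_sum Finset.univ τ fun z l =>
    integrable_dis (AT_symm N) _ E (stw_e_pos h τ l) _ hg (stw_w_nonneg h τ l)]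
  rfl

theorem om_e (h : W.Ok lam E C1 η) (τ : ℝ) (l : Tor N → W.Λ) (v : Tor N → ℝ) :
    (fun x => omX W τ l x * -(WV E (eT W.u W.w τ l) v x).im) = wT W.w τ l := by
  funext x
  rw [WV_im0]
  unfold omX
  have := (stw_e_pos h τ l x).ne'
  field_simp

/-- `OmX ≤ EnX` -/
theorem OmX_le_EnX (h : W.Ok lam E C1 η) (θ ε τ : ℝ) :
    OmX W lam E C1 θ ε τ ≤ EnX W E C1 τ := by
  have hA := AT_symm N
  unfold OmX EnX
  refine div_le_div_of_nonneg_right ?_ N2_pos.le
  refine le_trans ?_ (Phi_fR_le h (nJ C1 W.S) τ)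
  refine AvG_mono (laws h) (stw_e_pos h τ)
    (fun l => adm_OmV hA (measurableSet_ZX W lam E l) (fR N (nJ C1 W.S)) (omX W τ l) θ ε)
    (fun l => H179.Adm.sum _ fun k _ => adm_En hA (fR N (nJ C1 W.S) k)) fun l V hV => ?_
  rw [OmV_eq hA hV _ _ (omX_nonneg h τ l) (omX_le h τ l), ← datOf_En hA hV
    (fR N (nJ C1 W.S)) (omX W τ l) (omX_nonneg h τ l) (omX_le h τ l)]
  exact H179.Om_le_En _ _ _ _ _

/-- **the pathwise inequality, averaged** -/
theorem OmX_le_of_path (h : W.Ok lam E C1 η) {τ θ ε T g a b c d f : ℝ} {i : ℕ} (hg : 0 < g)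
    (ha : 0 ≤ a) (hb : 0 ≤ b) (hc : 0 ≤ c) (hf : 0 ≤ f)
    (hp : ∀ (l : Tor N → W.Λ) (V : Tor N → ℂ) (hV : ∀ x, (V x).im < 0),
      OmV (AT N) (fR N (nJ C1 W.S)) (omX W τ l) (ZX W lam E l V) θ ε V ≤
        a * (P365T2.H844.Pos (PhiR N (nJ C1 W.S)) (P365T2.H844.TT (AT N) V) (Real.exp (-T))
          (nJ C1 W.S) + ∑ k, En (AT N) V (fR N (nJ C1 W.S) k)) +
        b * (∑ k, En (AT N) V (fR N (nJ C1 W.S) k)) +
        c * ∑ s ∈ Finset.range (nJ C1 W.S - i),
          CscP (AT N) V (fun x => omX W τ l x * -(V x).im) g (2 ^ (s + i + 2)) +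
        d * BadV (AT N) (fR N (nJ C1 W.S)) (ZX W lam E l V) V +
        f * ((∑ x, ∑ y, (-(V x).im) * (-(V y).im) * KK (AT N) V x y * dsq x y ^ 2) /
          4 ^ nJ C1 W.S)) :
    OmX W lam E C1 θ ε τ ≤ a * (PosX W E C1 T τ + EnX W E C1 τ) + b * EnX W E C1 τ +
      c * FBn E C1 g N W τ + d * BadX W lam E C1 τ + f * ErrX W E C1 τ := by
  haveI := h.prob
  have hA := AT_symm N
  have hN := N2_pos (N := N)
  set J := nJ C1 W.S with hJ
  set F := fR N J with hF
  -- the functionals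
  set G1 : (Tor N → W.Λ) → (Tor N → ℂ) → ℝ := fun _ V =>
    P365T2.H844.Pos (PhiR N J) (P365T2.H844.TT (AT N) V) (Real.exp (-T)) J with hG1
  set G2 : (Tor N → W.Λ) → (Tor N → ℂ) → ℝ := fun _ V => ∑ k, En (AT N) V (F k) with hG2
  set G3 : ℕ → (Tor N → W.Λ) → (Tor N → ℂ) → ℝ := fun s l V =>
    CscP (AT N) V (wT W.w τ l) g (2 ^ (s + i + 2)) with hG3
  set G4 : (Tor N → W.Λ) → (Tor N → ℂ) → ℝ := fun l V =>
    BadV (AT N) F (ZX W lam E l V) V with hG4
  set G5 : (Tor N → W.Λ) → (Tor N → ℂ) → ℝ := fun _ V =>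
    ∑ x, ∑ y, (-(V x).im) * (-(V y).im) * KK (AT N) V x y * dsq x y ^ 2 with hG5
  have adm : ∀ {G : (Tor N → ℂ) → ℝ} (l : Tor N → W.Λ), H179.Adm G →
      Integrable (fun v => G (WV E (eT W.u W.w τ l) v)) (Measure.pi fun x => W.ν (l x)) :=
    fun l hG => hG.integrable (fun x => h.supp _) (stw_e_pos h τ l)
  have I1 : ∀ l, Integrable (fun v => G1 l (WV E (eT W.u W.w τ l) v))
      (Measure.pi fun x => W.ν (l x)) := fun l => adm l (adm_Pos _ hA (Real.exp_pos _) J)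
  have I2 : ∀ l, Integrable (fun v => G2 l (WV E (eT W.u W.w τ l) v))
      (Measure.pi fun x => W.ν (l x)) := fun l =>
    adm l (H179.Adm.sum _ fun k _ => adm_En hA (F k))
  have I3 : ∀ s l, Integrable (fun v => G3 s l (WV E (eT W.u W.w τ l) v))
      (Measure.pi fun x => W.ν (l x)) := fun s l => integrable_CscP h τ l hg _
  have I3' : ∀ l, Integrable (fun v => (∑ s ∈ Finset.range (J - i),
      G3 s l (WV E (eT W.u W.w τ l) v))) (Measure.pi fun x => W.ν (l x)) := fun l =>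
    integrable_finset_sum _ fun s _ => I3 s l
  have I4 : ∀ l, Integrable (fun v => G4 l (WV E (eT W.u W.w τ l) v))
      (Measure.pi fun x => W.ν (l x)) := fun l =>
    adm l (adm_BadV hA (measurableSet_ZX W lam E l) F)
  have I5 : ∀ l, Integrable (fun v => G5 l (WV E (eT W.u W.w τ l) v))
      (Measure.pi fun x => W.ν (l x)) := fun l =>
    adm l (H179.Adm.sum _ fun x _ => H179.Adm.sum _ fun y _ =>
      (((adm_e x).mul (adm_e y)).mul (adm_KK hA x y)).mul (H179.Adm.const (dsq x y ^ 2)))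
  have key : (W.Av E τ fun l V => OmV (AT N) F (omX W τ l) (ZX W lam E l V) θ ε V) ≤
      W.Av E τ fun l V => ((((a * G1 l V + (a + b) * G2 l V) +
        c * ∑ s ∈ Finset.range (J - i), G3 s l V) + d * G4 l V) + f / 4 ^ J * G5 l V) := by
    refine Vale.Agent.P365.J376.AvG_mono h.p_nonneg (fun l => adm l
        (adm_OmV hA (measurableSet_ZX W lam E l) F (omX W τ l) θ ε)) (fun l =>
      ((((I1 l).const_mul a).add ((I2 l).const_mul (a + b))).add ((I3' l).const_mul c)).add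
        ((I4 l).const_mul d) |>.add ((I5 l).const_mul (f / 4 ^ J))) fun l v => ?_
    refine (hp l _ (WV_neg (stw_e_pos h τ l) v)).trans (le_of_eq ?_)
    rw [om_e h τ l v]
    simp only [hG1, hG2, hG3, hG4, hG5]
    ring
  have key2 : (W.Av E τ fun l V => ((((a * G1 l V + (a + b) * G2 l V) +
        c * ∑ s ∈ Finset.range (J - i), G3 s l V) + d * G4 l V) + f / 4 ^ J * G5 l V)) =
      a * W.Av E τ G1 + (a + b) * W.Av E τ G2 +
        c * ∑ s ∈ Finset.range (J - i), W.Av E τ (G3 s) + d * W.Av E τ G4 +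
        f / 4 ^ J * W.Av E τ G5 := by
    rw [P365T2.H784.Av_add τ (fun l => ((((I1 l).const_mul a).add ((I2 l).const_mul (a + b))).add
        ((I3' l).const_mul c)).add ((I4 l).const_mul d)) (fun l => (I5 l).const_mul (f / 4 ^ J)),
      P365T2.H784.Av_add τ (fun l => (((I1 l).const_mul a).add ((I2 l).const_mul (a + b))).add
        ((I3' l).const_mul c)) (fun l => (I4 l).const_mul d),
      P365T2.H784.Av_add τ (fun l => ((I1 l).const_mul a).add ((I2 l).const_mul (a + b)))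
        (fun l => (I3' l).const_mul c),
      P365T2.H784.Av_add τ (fun l => (I1 l).const_mul a) (fun l => (I2 l).const_mul (a + b)),
      P365T2.H784.Av_const_mul, P365T2.H784.Av_const_mul, P365T2.H784.Av_const_mul,
      P365T2.H784.Av_const_mul, P365T2.H784.Av_const_mul,
      P365T2.H784.Av_sum (Finset.range (J - i)) τ I3]
  have h1 : W.Av E τ G1 = PosX W E C1 T τ * (N : ℝ) ^ 2 := (div_mul_cancel₀ _ hN.ne').symm
  have h2 : W.Av E τ G2 ≤ EnX W E C1 τ * (N : ℝ) ^ 2 := by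
    have e : EnX W E C1 τ * (N : ℝ) ^ 2 = W.Phi E (uF N J) τ := div_mul_cancel₀ _ hN.ne'
    rw [e]
    exact Phi_fR_le h J τ
  have h3 : ∑ s ∈ Finset.range (J - i), W.Av E τ (G3 s) ≤ FBn E C1 g N W τ * (N : ℝ) ^ 2 := by
    have e : FBn E C1 g N W τ * (N : ℝ) ^ 2 =
        ∑ s ∈ Finset.range (2 * J + 5), Csc W E g (2 ^ s) τ := div_mul_cancel₀ _ hN.ne'
    rw [e]
    have e2 : ∑ s ∈ Finset.range (J - i), W.Av E τ (G3 s) =
        ∑ s ∈ (Finset.range (J - i)).image (fun s => s + i + 2), Csc W E g (2 ^ s) τ := by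
      rw [Finset.sum_image fun x _ y _ hxy => by simpa using hxy]
      exact Finset.sum_congr rfl fun s _ => Av_CscP h τ hg _
    rw [e2]
    refine Finset.sum_le_sum_of_subset_of_nonneg ?_ fun s _ _ => Csc_nonneg' h _ τ
    intro s hs
    obtain ⟨t, ht, rfl⟩ := Finset.mem_image.1 hs
    have := Finset.mem_range.1 ht
    exact Finset.mem_range.2 (by omega)
  have h4 : W.Av E τ G4 = BadX W lam E C1 τ * (N : ℝ) ^ 2 := (div_mul_cancel₀ _ hN.ne').symm
  have h5 : f / 4 ^ J * W.Av E τ G5 ≤ f * ErrX W E C1 τ * (N : ℝ) ^ 2 := by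
    have e : W.Av E τ G5 = W.M4 E τ := rfl
    rw [e]
    have hX : W.M4 E τ / 4 ^ J / (N : ℝ) ^ 2 ≤ ErrX W E C1 τ := by
      have k1 := H259.Yg_nonneg h (uF N J) τ
      have k2 := H259.EM_nonneg h (stw_u_nonneg h) τ
      have k3 : 0 ≤ (W.Yg E (uF N J) τ + 16 ^ J * W.EM E W.u τ) / (N : ℝ) ^ 2 := by positivity
      have k4 : 0 ≤ 1 / |W.S| := by positivity
      have k5 : 0 ≤ 192 * 4 ^ J / (N : ℝ) := by positivity
      unfold ErrX
      rw [← hJ, add_div _ (W.M4 E τ / 4 ^ J)]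
      linarith
    rw [div_le_iff₀ hN] at hX
    have := mul_le_mul_of_nonneg_left hX hf
    calc f / 4 ^ J * W.M4 E τ = f * (W.M4 E τ / 4 ^ J) := by ring
      _ ≤ f * (ErrX W E C1 τ * (N : ℝ) ^ 2) := this
      _ = _ := by ring
  have h2' := mul_le_mul_of_nonneg_left h2 (add_nonneg ha hb)
  have h3' := mul_le_mul_of_nonneg_left h3 hc
  unfold OmX
  rw [div_le_iff₀ hN]
  refine key.trans ?_
  rw [key2, h1, h4]
  calc _ ≤ a * (PosX W E C1 T τ * (N : ℝ) ^ 2) + (a + b) * (EnX W E C1 τ * (N : ℝ) ^ 2) +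
        c * (FBn E C1 g N W τ * (N : ℝ) ^ 2) + d * (BadX W lam E C1 τ * (N : ℝ) ^ 2) +
        f * ErrX W E C1 τ * (N : ℝ) ^ 2 := by linarith
    _ = _ := by ring

/-- **`om` of `OneFacts2`, for one stage** -/
theorem om_fact (hlam : 0 < lam) (hC1 : 0 < C1) (E : ℝ) {θ : ℝ} (hθ : 0 < θ) (hθ1 : θ ≤ 1)
    {k : ℝ} (hk : 1 ≤ k) : ∃ C' : ℝ, 0 < C' ∧ ∃ T₀ : ℝ, 1 ≤ T₀ ∧ ∀ T : ℝ, T₀ ≤ T →
      ∀ g : ℝ, 1 ≤ g → ∀ ε : ℝ, 0 < ε → ε ≤ 1 → ∀ (N : ℕ) [NeZero N] (W : StW N),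
      W.Ok lam E C1 1 → ∀ τ ∈ Set.Icc 0 W.S,
      OmX W lam E C1 θ ε τ ≤ (4 / θ + 2) / k * (PosX W E C1 T τ + EnX W E C1 τ) +
        C' * (ε * g) * EnX W E C1 τ + C' * FBn E C1 g N W τ + C' * ErrX W E C1 τ := by
  obtain ⟨i, C, T₀, hC, hT₀, hp⟩ := H179.om_path hθ hθ1 hk
  have hB := P365T2.H798.CBE_nonneg hlam E
  set CB := CBE lam (P365T2.H798.bS lam) E with hCB
  have hCB0 : 0 ≤ C * (2 + CB) := by positivity
  refine ⟨C * (2 + CB) + 16 * i + 16 * C1, by positivity, T₀, hT₀, ?_⟩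
  intro T hT g hg ε hε hε1 N _ W h τ hτ
  have hS : 1 ≤ W.S := by simpa using h.S_ge
  have hk0 : 0 < k := by linarith
  have hP := PosX_nonneg h T τ
  have hE := H259.EnX_nonneg h τ
  have hF := FBn_nonneg h g τ
  have hX := H259.ErrX_nonneg h τ
  set C' := C * (2 + CB) + 16 * i + 16 * C1 with hC'
  have hC'0 : 0 ≤ C' := by positivity
  have t1 : 0 ≤ (4 / θ + 2) / k * (PosX W E C1 T τ + EnX W E C1 τ) := by positivity
  have t2 : 0 ≤ C' * (ε * g) * EnX W E C1 τ := by positivity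
  have t3 : 0 ≤ C' * FBn E C1 g N W τ := by positivity
  have hOm : OmX W lam E C1 θ ε τ ≤ 16 * C1 :=
    (OmX_le_EnX h θ ε τ).trans (EnX_le h hτ C1)
  have hi0 : (0 : ℝ) ≤ i := Nat.cast_nonneg i
  rcases le_or_gt (nJ C1 W.S) i with hJ | hJ
  · -- a short stage
    have h1 := inv_S_le_ErrX h C1 τ
    rw [abs_of_pos (by linarith)] at h1
    have h2 : C1 * W.S ≤ i := by
      have h3 := le_nJ C1 W.S
      have h4 : (nJ C1 W.S : ℝ) ≤ i := by exact_mod_cast hJ
      linarith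
    have h3 : C1 ≤ i * ErrX W E C1 τ := by
      calc C1 = C1 * W.S * (1 / W.S) := by
            have : W.S ≠ 0 := by linarith
            field_simp
        _ ≤ i * ErrX W E C1 τ := mul_le_mul h2 h1 (by positivity) hi0
    have h4 : 16 * C1 ≤ C' * ErrX W E C1 τ := by
      have h5 : 0 ≤ (C * (2 + CB) + 16 * C1) * ErrX W E C1 τ := by positivity
      have h6 : C' * ErrX W E C1 τ = (C * (2 + CB) + 16 * C1) * ErrX W E C1 τ +
        16 * (i * ErrX W E C1 τ) := by rw [hC']; ring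
      linarith
    linarith
  rcases big_or_one_le_ErrX h C1 τ with hN | hX1
  · -- the main case
    have hN' : 12 * 2 ^ (nJ C1 W.S + 1) < N := by
      refine lt_of_le_of_lt (Nat.mul_le_mul_left _ (Nat.pow_le_pow_right (by norm_num) ?_)) hN
      omega
    have key := OmX_le_of_path h (τ := τ) (θ := θ) (ε := ε) (T := T) (g := g)
      (a := (4 / θ + 2) / k) (b := C * (ε * g)) (c := C) (d := C) (f := C) (i := i)
      (by linarith) (by positivity) (by positivity) (by linarith) (by linarith)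
      (fun l V hV => by
        have h1 := hp T hT g hg ε hε hε1 (N := N) (J := nJ C1 W.S) (by omega) hN' (AT_symm N) hV
          (omX W τ l) (omX_nonneg h τ l) (omX_le h τ l) (ZX W lam E l V)
        rw [datOf_En, ← OmV_eq, ← BadV_eq] at h1
        exact h1)
    have h2 := BadX_le h hlam τ
    rw [← hCB] at h2
    have h3 : C * BadX W lam E C1 τ ≤ C * ((1 + CB) * ErrX W E C1 τ) :=
      mul_le_mul_of_nonneg_left h2 (by linarith)
    have h4 : C ≤ C' := by
      have h5 : C * 1 ≤ C * (2 + CB) := mul_le_mul_of_nonneg_left (by linarith) (by linarith)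
      rw [hC']
      linarith
    have h5 : C * (ε * g) * EnX W E C1 τ ≤ C' * (ε * g) * EnX W E C1 τ := by
      have : 0 ≤ ε * g := by positivity
      gcongr
    have h6 : C * FBn E C1 g N W τ ≤ C' * FBn E C1 g N W τ := mul_le_mul_of_nonneg_right h4 hF
    have h7 : C * ((1 + CB) * ErrX W E C1 τ) + C * ErrX W E C1 τ ≤ C' * ErrX W E C1 τ := by
      have h8 : C' * ErrX W E C1 τ = C * ((1 + CB) * ErrX W E C1 τ) + C * ErrX W E C1 τ +
        (16 * i + 16 * C1) * ErrX W E C1 τ := by rw [hC']; ring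
      have h9 : 0 ≤ (16 * i + 16 * C1) * ErrX W E C1 τ := by positivity
      linarith
    linarith
  · -- a small torus
    have h4 : 16 * C1 ≤ C' * ErrX W E C1 τ := by
      have h5 : 16 * C1 ≤ C' := by
        rw [hC']
        linarith
      calc 16 * C1 ≤ C' * 1 := by linarith
        _ ≤ C' * ErrX W E C1 τ := mul_le_mul_of_nonneg_left hX1 hC'0
    linarith

/-- **`om` of `OneFacts2`**, literally, over the states -/
theorem om_field (hlam : 0 < lam) (hC1 : 0 < C1) (E : ℝ) :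
    ∀ θ : ℝ, 0 < θ → θ ≤ 1 → ∃ C : ℝ, 0 < C ∧ ∀ k : ℝ, 1 ≤ k → ∃ C' : ℝ, 0 < C' ∧
      ∃ T₀ : ℝ, 1 ≤ T₀ ∧ ∀ T : ℝ, T₀ ≤ T → ∀ g : ℝ, 1 ≤ g → ∀ ε : ℝ, 0 < ε → ε ≤ 1 →
        ∀ s : Sta lam E C1, OmX s.W lam E C1 θ ε s.τ ≤
          C / k * ((FPos E C1 T).on s + (FEn E C1).on s) + C' * (ε * g) * (FEn E C1).on s +
            C' * (FBn E C1 g).on s + C' * (FErr E C1).on s := by
  intro θ hθ hθ1
  refine ⟨4 / θ + 2, by positivity, fun k hk => ?_⟩
  obtain ⟨C', hC', T₀, hT₀, h⟩ := om_fact hlam hC1 E hθ hθ1 hk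
  exact ⟨C', hC', T₀, hT₀, fun T hT g hg ε hε hε1 s => h T hT g hg ε hε hε1 s.N s.W s.ok s.τ s.hτ⟩

end stw

end P365T2.H883
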