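import Vale.Agent.P365.T2.OneTop905
import Vale.Agent.P365.T2.OneWire905
import Vale.Agent.P365.T2.XDefs629

/-!
# P365-T2, OneFacts2.om: the pathwise inequality on the torus (helper883)

905's `om_top` for the truncated field of 320: the weak, far or bad partners of the mobile rows are
paid by 844's `Pos`, the energy, the energy of the bad sites, the count `BH` and the fourth moment.
-/

set_option linter.all false

namespace P365T2.H883

open Finset Matrix Complex P365L P365L.TL P365T2.H905 P365T2.H320K P365T2.H320U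
open Vale.Agent.P365.J376

variable {N : ℕ} [NeZero N]

/-- the datum of one configuration: Green function, truncated field of 320, weights `om` -/
noncomputable abbrev datR {A : Matrix (Tor N) (Tor N) ℝ} {V : Tor N → ℂ} (hA : A.IsSymm)
    (hV : ∀ x, (V x).im < 0) (J : ℕ) (om : Tor N → ℝ) (h0 : ∀ x, 0 ≤ om x) (h1 : ∀ x, om x ≤ 1) :
    Dat (Tor N) (Fin (mR N J)) := datOf A V hA hV (fR N J) om h0 h1

section

variable {A : Matrix (Tor N) (Tor N) ℝ} {V : Tor N → ℂ} (hA : A.IsSymm)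
  (hV : ∀ x, (V x).im < 0) (J : ℕ) (om : Tor N → ℝ) (h0 : ∀ x, 0 ≤ om x) (h1 : ∀ x, om x ≤ 1)

theorem datR_d2 (x y : Tor N) :
    (datR hA hV J om h0 h1).d2 x y = P365T2.H37.hk ((4 : ℝ) ^ J) (4 * dsq x y) := fR_spec x y

theorem datR_tt (x y : Tor N) :
    P365T2.H844.tt (PhiR N J) x y = (datR hA hV J om h0 h1).d2 x y := by
  rw [datR_d2]
  exact ttR_eq x y

theorem datR_TT (x y : Tor N) :
    P365T2.H844.TT A V x y = (datR hA hV J om h0 h1).e x * (datR hA hV J om h0 h1).e y *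
      (datR hA hV J om h0 h1).K x y := rfl

theorem datR_or (hJ : 1 ≤ J) (x y : Tor N) :
    (datR hA hV J om h0 h1).d2 x y = 0 ∨ 1 ≤ (datR hA hV J om h0 h1).d2 x y := by
  rw [← datR_tt]
  exact ttR_or hJ x y

theorem datR_le (x y : Tor N) : (datR hA hV J om h0 h1).d2 x y ≤ 4 ^ J := by
  rw [← datR_tt]
  exact ttR_le x y

theorem datR_d2_le (x y : Tor N) : (datR hA hV J om h0 h1).d2 x y ≤ 4 * dsq x y := by
  rw [← datR_tt]
  exact ttR_le_phi x y

theorem datR_M4 : ∑ x, ∑ y, (datR hA hV J om h0 h1).e x * (datR hA hV J om h0 h1).e y *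
      (datR hA hV J om h0 h1).K x y * (datR hA hV J om h0 h1).d2 x y ^ 2 ≤
    16 * ∑ x, ∑ y, (-(V x).im) * (-(V y).im) * KK A V x y * dsq x y ^ 2 := by
  rw [Finset.mul_sum]
  refine Finset.sum_le_sum fun x _ => ?_
  rw [Finset.mul_sum]
  refine Finset.sum_le_sum fun y _ => ?_
  have h3 := datR_d2_le hA hV J om h0 h1 x y
  have h4 := (datR hA hV J om h0 h1).d2_nonneg x y
  have h5 : (datR hA hV J om h0 h1).d2 x y ^ 2 ≤ 16 * dsq x y ^ 2 := by
    have := pow_le_pow_left₀ h4 h3 2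
    linarith [this, (by ring : (4 * dsq x y) ^ 2 = 16 * dsq x y ^ 2)]
  have h6 : 0 ≤ (datR hA hV J om h0 h1).e x * (datR hA hV J om h0 h1).e y *
      (datR hA hV J om h0 h1).K x y :=
    mul_nonneg (mul_nonneg ((datR hA hV J om h0 h1).he x).le ((datR hA hV J om h0 h1).he y).le)
      ((datR hA hV J om h0 h1).hK x y)
  have h7 := mul_le_mul_of_nonneg_left h5 h6
  have h8 : (datR hA hV J om h0 h1).e x * (datR hA hV J om h0 h1).e y *
      (datR hA hV J om h0 h1).K x y = (-(V x).im) * (-(V y).im) * KK A V x y := rfl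
  rw [h8] at h7 ⊢
  linarith

/-- **`om`, pathwise** -/
theorem om_path {k0 : ℕ} (hJ : 1 ≤ J) (hk1 : 1 ≤ k0) (hk2 : k0 ≤ J + 1)
    {Z : Finset (Tor N)} {θ q0 L CF M ε T : ℝ} (hθ : 0 < θ) (hC : 0 < CF) (hM : 0 < M)
    (hq : 0 < q0) (hL : 0 < L) (hε : 0 < ε) (hεh : ε ≤ 1 / 2)
    (hp : ∀ a b, θ / 144 ≤ a → 0 ≤ b → b ≤ q0 →
      M ≤ (a - b) * Real.log ((a + Real.exp (-T)) / (b + Real.exp (-T))))
    (H2 : ℕ → Tor N → Prop)
    (hH2 : ∀ s, s < k0 → ∀ v, CF < ∑ x ∈ univ.filter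
      (fun x => (datR hA hV J om h0 h1).dd v x ≤ L * (kerR (datR hA hV J om h0 h1) J).rad s),
      (datR hA hV J om h0 h1).pw x * (kerR (datR hA hV J om h0 h1) J).u s x → H2 s v) :
    Om (datR hA hV J om h0 h1) univ Z θ ε ≤
      4 / (θ * M) * P365T2.H844.Pos (PhiR N J) (P365T2.H844.TT A V) (Real.exp (-T)) J
        + (2 / L + 2 * ε * CF / q0) * (datR hA hV J om h0 h1).En
        + 4 / (θ * q0) * Ker.BadE (datR hA hV J om h0 h1) Z
        + 4 / θ * (kerR (datR hA hV J om h0 h1) J).BH univ (θ / 144) H2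
        + 9216 / (θ ^ 2 * 4 ^ (k0 - 1)) *
          ∑ x, ∑ y, (-(V x).im) * (-(V y).im) * KK A V x y * dsq x y ^ 2 := by
  set D := datR hA hV J om h0 h1 with hD
  have he : 0 < Real.exp (-T) := Real.exp_pos _
  obtain ⟨sv, hsv⟩ := scl D (datR_or hA hV J om h0 h1 hJ) (datR_le hA hV J om h0 h1) hθ
    (univ : Finset (Tor N))
  have key := om_top D hk1 hk2 (Mv := univ) (Z := Z)
    (pos := fun a b => (a - b) * Real.log ((a + Real.exp (-T)) / (b + Real.exp (-T))))
    hθ (by positivity : 0 < θ / 144) hC hM hq hL hε hεh hsv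
    (fun a b ha hb => Ker.posFam_log.1 (Real.exp (-T)) a b he ha hb) hp H2
    hH2 H2 (fun s v _ h => h)
  have h3 := Pos_le (Φ := PhiR N J) (Q := P365T2.H844.TT A V) (D := D)
    (datR_tt hA hV J om h0 h1) (datR_TT hA hV J om h0 h1) he J (univ : Finset (Tor N))
  have h4 := mul_le_mul_of_nonneg_left h3 (show 0 ≤ 4 / (θ * M) by positivity)
  have h5 := datR_M4 hA hV J om h0 h1
  have h6 := mul_le_mul_of_nonneg_left h5
    (show (0:ℝ) ≤ 4 / (θ * (θ / 144 * 4 ^ (k0 - 1))) by positivity)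
  have h7 : 4 / (θ * (θ / 144 * 4 ^ (k0 - 1))) *
      (16 * ∑ x, ∑ y, (-(V x).im) * (-(V y).im) * KK A V x y * dsq x y ^ 2) =
      9216 / (θ ^ 2 * 4 ^ (k0 - 1)) *
        ∑ x, ∑ y, (-(V x).im) * (-(V y).im) * KK A V x y * dsq x y ^ 2 := by
    have : (0:ℝ) < 4 ^ (k0 - 1) := by positivity
    field_simp
    ring
  rw [h7] at h6
  have h8 : (2 / L + 2 * ε * CF / q0) * D.En = 2 / L * D.En + 2 * ε * CF / q0 * D.En := by ring
  rw [h8]
  linarith

/-- trivial bound -/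
theorem Om_le_En (Z : Finset (Tor N)) (θ ε : ℝ) :
    Om (datR hA hV J om h0 h1) univ Z θ ε ≤ (datR hA hV J om h0 h1).En := by
  set D := datR hA hV J om h0 h1 with hD
  refine le_trans ?_ (D.MobE_le_En univ θ)
  unfold Om Dat.MobE
  refine Finset.sum_le_sum fun v _ => ?_
  have h3 : 0 ≤ D.om v * (D.pw v * D.V v) :=
    mul_nonneg (D.hom0 v) (mul_nonneg (D.pw_pos v).le (D.V_nonneg v))
  refine mul_le_of_le_one_right h3 ?_
  rw [← D.sum_P v]
  refine Finset.sum_le_sum fun x _ => ?_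
  have := D.P_nonneg v x
  split_ifs <;> linarith

end

end P365T2.H883
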